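import Vale.Agent.P199.Leaf

/-!
# P199, deletion: the first order condition

`Lin N x z`: the powers up to `N` of `[[x, z], [0, x]]` and the corners `x ^ i`, `i < N`, are dependent.
For regular `x` this says that `x` has a monic equation `p` of degree `N` and that the derivative of `p`
at `x` in the direction `z` is a polynomial in `x`. It is linear in `z` and polynomial in `x`.
-/

namespace Vale.P199.Detect

open Polynomial Matrix

noncomputable section

variable {F A : Type*} [Field F] [Ring A] [Algebra F A] {N : ℕ}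

/-- The powers below `N` are independent. -/
def Reg (F : Type*) [Field F] [Algebra F A] (N : ℕ) (x : A) : Prop :=
  LinearIndependent F fun k : Fin N => x ^ (k : ℕ)

/-- The powers from `1` to `N` are independent. -/
def RegInv (F : Type*) [Field F] [Algebra F A] (N : ℕ) (x : A) : Prop :=
  LinearIndependent F fun k : Fin N => x ^ ((k : ℕ) + 1)

/-- The point `[[x, z], [0, x]]`. -/
def two (x z : A) : Matrix (Fin 2) (Fin 2) A := !![x, z; 0, x]

/-- The corner `[[0, z], [0, 0]]`. -/
def corner (z : A) : Matrix (Fin 2) (Fin 2) A := !![0, z; 0, 0]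

/-- The vectors of the condition. -/
def linVec (N : ℕ) (x z : A) : Fin (N + 1) ⊕ Fin N → Matrix (Fin 2) (Fin 2) A :=
  Sum.elim (fun k => two x z ^ (k : ℕ)) fun i => corner (x ^ (i : ℕ))

/-- The first order condition. -/
def Lin (F : Type*) [Field F] [Algebra F A] (N : ℕ) (x z : A) : Prop :=
  ¬LinearIndependent F (linVec N x z)

/-- The value of a polynomial in the corner. -/
def dpol (x z : A) : F[X] →ₗ[F] A where
  toFun p := aeval (two x z) p 0 1
  map_add' p q := by simp
  map_smul' c p := by simp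

lemma two_mul (x z x' z' : A) : two x z * two x' z' = two (x * x') (x * z' + z * x') := by
  ext i j
  fin_cases i <;> fin_cases j <;> simp [two, Matrix.mul_apply, Fin.sum_univ_two]

lemma two_add (x z x' z' : A) : two x z + two x' z' = two (x + x') (z + z') := by
  ext i j
  fin_cases i <;> fin_cases j <;> simp [two]

lemma algebraMap_eq_two (c : F) :
    algebraMap F (Matrix (Fin 2) (Fin 2) A) c = two (algebraMap F A c) 0 := by
  ext i j
  fin_cases i <;> fin_cases j <;> simp [two, Matrix.algebraMap_matrix_apply]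

lemma aeval_two (x z : A) (p : F[X]) : aeval (two x z) p = two (aeval x p) (dpol x z p) := by
  have h : ∀ p : F[X], ∃ w, aeval (two x z) p = two (aeval x p) w := fun p => by
    induction p using Polynomial.induction_on with
    | C c => exact ⟨0, by rw [aeval_C, aeval_C, algebraMap_eq_two]⟩
    | add p q hp hq =>
      obtain ⟨u, hu⟩ := hp
      obtain ⟨v, hv⟩ := hq
      exact ⟨u + v, by rw [map_add, map_add, hu, hv, two_add]⟩
    | monomial n c h =>
      obtain ⟨u, hu⟩ := h
      exact ⟨aeval x (C c * X ^ n) * z + u * x, by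
        rw [pow_succ, ← mul_assoc, map_mul, aeval_X, hu, two_mul]
        simp [mul_assoc]⟩
  obtain ⟨w, hw⟩ := h p
  rw [hw, show dpol x z p = w from (congrFun (congrFun hw 0) 1 : _)]

lemma dpol_mul (x z : A) (p q : F[X]) :
    dpol x z (p * q) = aeval x p * dpol x z q + dpol x z p * aeval x q := by
  have h := aeval_two x z (p * q)
  rw [map_mul, aeval_two, aeval_two, two_mul] at h
  exact (congrFun (congrFun h 0) 1).symm

@[simp] lemma dpol_X (x z : A) : dpol x z (X : F[X]) = z := by
  show aeval (two x z) X 0 1 = z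
  simp [two]

@[simp] lemma dpol_C (x z : A) (c : F) : dpol x z (C c) = 0 := by
  show aeval (two x z) (C c) 0 1 = 0
  simp [algebraMap_eq_two, two]

/-- The span of the powers below `N`. -/
def pspan (F : Type*) [Field F] [Algebra F A] (N : ℕ) (x : A) : Submodule F A :=
  Submodule.span F (Set.range fun k : Fin N => x ^ (k : ℕ))

lemma mem_pspan_iff {x w : A} :
    w ∈ pspan F N x ↔ ∃ q : F[X], q.degree < N ∧ aeval x q = w := by
  classical
  refine ⟨fun h => ?_, ?_⟩
  · obtain ⟨c, hc⟩ := (Submodule.mem_span_range_iff_exists_fun F).1 h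
    refine ⟨∑ k : Fin N, C (c k) * X ^ (k : ℕ), degree_sum_fin_lt c, ?_⟩
    simp [← hc, Algebra.smul_def]
  · rintro ⟨q, hq, rfl⟩
    rcases eq_or_ne q 0 with rfl | hq0
    · simp
    rw [aeval_eq_sum_range' ((natDegree_lt_iff_degree_lt hq0).2 hq)]
    exact Submodule.sum_mem _ fun i hi => Submodule.smul_mem _ _
      (Submodule.subset_span ⟨⟨i, Finset.mem_range.1 hi⟩, rfl⟩)

lemma aeval_mem_pspan {x : A} {p : F[X]} (hp : p.Monic) (hdeg : p.natDegree = N) (h0 : aeval x p = 0)
    (q : F[X]) : aeval x q ∈ pspan F N x := by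
  refine mem_pspan_iff.2 ⟨q %ₘ p, ?_, ?_⟩
  · rw [← hdeg, ← degree_eq_natDegree hp.ne_zero]
    exact degree_modByMonic_lt _ hp
  · conv_rhs => rw [← modByMonic_add_div q p]
    simp [h0]

/-- A regular element is killed by no nonzero polynomial of small degree. -/
lemma Reg.eq_zero {x : A} (hx : Reg F N x) {q : F[X]} (hq : q.degree < N) (h0 : aeval x q = 0) :
    q = 0 := by
  by_contra hq0
  have hlt := (natDegree_lt_iff_degree_lt hq0).2 hq
  rw [aeval_eq_sum_range' hlt, ← Fin.sum_univ_eq_sum_range (fun k => q.coeff k • x ^ k)] at h0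
  have h := Fintype.linearIndependent_iff.1 hx (fun k => q.coeff k) h0 ⟨q.natDegree, hlt⟩
  exact hq0 (leadingCoeff_eq_zero.1 h)

/-- The converse. -/
lemma reg_of_forall {x : A} (h : ∀ q : F[X], q.degree < N → aeval x q = 0 → q = 0) : Reg F N x := by
  classical
  refine Fintype.linearIndependent_iff.2 fun c hc k => ?_
  have h0 := congrArg (fun q : F[X] => q.coeff k) (h (∑ i : Fin N, C (c i) * X ^ (i : ℕ))
    (degree_sum_fin_lt c) (by simpa [Algebra.smul_def] using hc))
  simpa [coeff_X_pow, Fin.val_inj] using h0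

lemma RegInv.reg {x : A} (hx : RegInv F N x) : Reg F N x :=
  LinearIndependent.of_comp (LinearMap.mulLeft F x)
    (by simpa [RegInv, Function.comp_def, ← pow_succ'] using hx)

/-- `Lin` as an equation and a membership. -/
theorem lin_iff {x z : A} (hx : Reg F N x) :
    Lin F N x z ↔ ∃ p : F[X], p.Monic ∧ p.natDegree = N ∧ aeval x p = 0 ∧
      dpol x z p ∈ pspan F N x := by
  classical
  have hval : ∀ (c : Fin (N + 1) ⊕ Fin N → F), ∑ i, c i • linVec N x z i =
      two (aeval x (∑ k : Fin (N + 1), C (c (.inl k)) * X ^ (k : ℕ)))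
        (dpol x z (∑ k : Fin (N + 1), C (c (.inl k)) * X ^ (k : ℕ)) +
          ∑ i : Fin N, c (.inr i) • x ^ (i : ℕ)) := by
    intro c
    rw [Fintype.sum_sum_type]
    have h1 : ∑ k, c (.inl k) • linVec N x z (.inl k) =
        two (aeval x (∑ k : Fin (N + 1), C (c (.inl k)) * X ^ (k : ℕ)))
          (dpol x z (∑ k : Fin (N + 1), C (c (.inl k)) * X ^ (k : ℕ))) := by
      rw [← aeval_two]
      simp [linVec, Algebra.smul_def]
    have h2 : ∑ i, c (.inr i) • linVec N x z (.inr i) =
        two 0 (∑ i : Fin N, c (.inr i) • x ^ (i : ℕ)) := by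
      ext a b
      fin_cases a <;> fin_cases b <;> simp [linVec, corner, two, Matrix.sum_apply]
    rw [h1, h2, two_add, add_zero]
  constructor
  · intro h
    obtain ⟨c, hc, i, hi⟩ := Fintype.not_linearIndependent_iff.1 h
    rw [hval] at hc
    have h00 := congrFun (congrFun hc 0) 0
    have h01 := congrFun (congrFun hc 0) 1
    simp only [two, Matrix.of_apply, Matrix.cons_val', Matrix.cons_val_zero, Matrix.cons_val_one,
      Matrix.cons_val_fin_one, Matrix.zero_apply] at h00 h01
    set q : F[X] := ∑ k : Fin (N + 1), C (c (.inl k)) * X ^ (k : ℕ) with hq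
    have hdq : q.degree < (N + 1 : ℕ) := degree_sum_fin_lt _
    have hcoe : ∀ k : Fin (N + 1), q.coeff k = c (.inl k) := fun k => by
      simp [hq, coeff_X_pow, Fin.val_inj]
    rcases eq_or_ne (q.coeff N) 0 with hN | hN
    · exfalso
      have hlt : q.degree < N := by
        rw [degree_lt_iff_coeff_zero] at hdq ⊢
        intro m hm
        rcases Nat.eq_or_lt_of_le hm with rfl | hm'
        · exact hN
        · exact hdq m (by omega)
      have hq0 := hx.eq_zero hlt h00
      rw [hq0, map_zero, zero_add] at h01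
      have hr := Fintype.linearIndependent_iff.1 hx (fun i => c (.inr i)) h01
      rcases i with k | k
      · exact hi (by rw [← hcoe, hq0, coeff_zero])
      · exact hi (hr k)
    · have hne : q ≠ 0 := fun h0 => hN (by rw [h0, coeff_zero])
      have hnd : q.natDegree = N := by
        refine le_antisymm ?_ (le_natDegree_of_ne_zero hN)
        have := (natDegree_lt_iff_degree_lt hne).2 hdq
        omega
      refine ⟨C (q.coeff N)⁻¹ * q, ?_, ?_, ?_, ?_⟩
      · rw [Monic, leadingCoeff_mul, leadingCoeff_C, leadingCoeff, hnd, inv_mul_cancel₀ hN]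
      · rw [natDegree_C_mul (inv_ne_zero hN), hnd]
      · rw [map_mul, h00, mul_zero]
      · rw [← smul_eq_C_mul, map_smul, eq_neg_of_add_eq_zero_left h01]
        exact Submodule.smul_mem _ _ (Submodule.neg_mem _ (Submodule.sum_mem _ fun i _ =>
          Submodule.smul_mem _ _ (Submodule.subset_span ⟨i, rfl⟩)))
  · rintro ⟨p, hp, hdeg, h0, hmem⟩ hLI
    obtain ⟨d, hd⟩ := (Submodule.mem_span_range_iff_exists_fun F).1 hmem
    let c : Fin (N + 1) ⊕ Fin N → F := Sum.elim (fun k => p.coeff k) fun i => -d i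
    have hpsum : (∑ k : Fin (N + 1), C (c (.inl k)) * X ^ (k : ℕ)) = p := by
      show (∑ k : Fin (N + 1), C (p.coeff k) * X ^ (k : ℕ)) = p
      rw [Fin.sum_univ_eq_sum_range fun k => C (p.coeff k) * X ^ k]
      conv_rhs => rw [p.as_sum_range_C_mul_X_pow' (show p.natDegree < N + 1 by omega)]
    have hc : ∑ i, c i • linVec N x z i = 0 := by
      rw [hval, hpsum, h0]
      ext a b
      fin_cases a <;> fin_cases b <;> simp [two, c, ← hd]
    have h1 := Fintype.linearIndependent_iff.1 hLI c hc (.inl (Fin.last N))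
    simp [c, ← hdeg, hp.coeff_natDegree] at h1

/-- Dependent powers at infinitely many points of a line of perturbations give the first order condition. -/
theorem lin_of_dep_infinite {x z : A} {S : Set F} (hS : S.Infinite) (hx : Reg F N x)
    (h0 : ¬LinearIndependent F fun k : Fin (N + 1) => x ^ (k : ℕ))
    (hdep : ∀ s ∈ S, ¬LinearIndependent F fun k : Fin (N + 1) => (z + s • x) ^ (k : ℕ)) :
    Lin F N x z := by
  classical
  obtain ⟨c, hc, i, hi⟩ := Fintype.not_linearIndependent_iff.1 h0
  -- the monic equation of `x`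
  set q : F[X] := ∑ k : Fin (N + 1), C (c k) * X ^ (k : ℕ) with hq
  have hq0 : aeval x q = 0 := by simpa [hq, Algebra.smul_def] using hc
  have hN : q.coeff N ≠ 0 := by
    intro hN
    have hlt : q.degree < N := by
      have hd : q.degree < (N + 1 : ℕ) := degree_sum_fin_lt _
      rw [degree_lt_iff_coeff_zero] at hd ⊢
      intro m hm
      rcases Nat.eq_or_lt_of_le hm with rfl | hm'
      · exact hN
      · exact hd m (by omega)
    have h := congrArg (fun p : F[X] => p.coeff i) (hx.eq_zero hlt hq0)
    simp [hq, coeff_X_pow, Fin.val_inj] at h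
    exact hi h
  have hnd : q.natDegree = N := by
    refine le_antisymm ?_ (le_natDegree_of_ne_zero hN)
    have := (natDegree_lt_iff_degree_lt (fun h0 => hN (by rw [h0, coeff_zero]))).2
      (show q.degree < (N + 1 : ℕ) from degree_sum_fin_lt _)
    omega
  refine (lin_iff hx).2 ⟨C (q.coeff N)⁻¹ * q, ?_, ?_, ?_, ?_⟩
  · rw [Monic, leadingCoeff_mul, leadingCoeff_C, leadingCoeff, hnd, inv_mul_cancel₀ hN]
  · rw [natDegree_C_mul (inv_ne_zero hN), hnd]
  · rw [map_mul, hq0, mul_zero]
  rw [← smul_eq_C_mul, map_smul]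
  refine Submodule.smul_mem _ _ ?_
  by_contra hno
  -- perturbed powers and the divided equation
  let Z : A[X] := Polynomial.C x + Polynomial.X * Polynomial.C z
  let Q : A[X] := aeval Z q
  have hcoeff : ∀ m : ℕ, (Z ^ m).coeff 0 = x ^ m ∧ (Z ^ m).coeff 1 = dpol x z (X ^ m : F[X]) := by
    intro m
    induction m with
    | zero =>
      refine ⟨by simp, ?_⟩
      rw [pow_zero, pow_zero, ← Polynomial.C_1 (R := F), dpol_C, coeff_one]
      simp
    | succ m ih =>
      have h1 : (Z ^ (m + 1)).coeff 0 = x ^ (m + 1) := by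
        rw [pow_succ, mul_coeff_zero, ih.1, pow_succ]
        simp [Z]
      refine ⟨h1, ?_⟩
      have h2 : (Z ^ m * (X * C z)).coeff 1 = x ^ m * z := by
        rw [X_mul_C, ← mul_assoc]
        exact (coeff_mul_X (Z ^ m * C z) 0).trans (by rw [coeff_mul_C, ih.1])
      rw [pow_succ, pow_succ, dpol_mul, dpol_X]
      conv_lhs => arg 1; rw [show Z ^ m * Z = Z ^ m * C x + Z ^ m * (X * C z) from mul_add _ _ _]
      rw [coeff_add, coeff_mul_C, h2, ih.2, aeval_X_pow, aeval_X]
      exact add_comm _ _
  have hQsum : ∀ i : ℕ, Q.coeff i = ∑ k : Fin (N + 1), c k • (Z ^ (k : ℕ)).coeff i := fun i => by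
    rw [show Q = aeval Z q from rfl, hq, map_sum, Polynomial.finsetSum_coeff]
    refine Finset.sum_congr rfl fun k _ => ?_
    rw [map_mul, aeval_C, map_pow, aeval_X, Polynomial.algebraMap_apply, coeff_C_mul, ← Algebra.smul_def]
  have hQ : Q.coeff 0 = 0 ∧ Q.coeff 1 = dpol x z q := by
    refine ⟨?_, ?_⟩
    · rw [hQsum, ← hc]
      exact Finset.sum_congr rfl fun k _ => by rw [(hcoeff _).1]
    · rw [hQsum, hq, map_sum]
      refine Finset.sum_congr rfl fun k _ => ?_
      rw [← smul_eq_C_mul, map_smul, (hcoeff _).2]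
  let fam : Fin (N + 1) → A[X] := Fin.snoc (fun k => Z ^ (k : ℕ)) Q.divX
  have hfam : LinearIndependent F fun k => (fam k).coeff 0 := by
    have : (fun k => (fam k).coeff 0) = Fin.snoc (fun k : Fin N => x ^ (k : ℕ)) (dpol x z q) := by
      funext k
      refine Fin.lastCases ?_ (fun j => ?_) k
      · simp [fam, coeff_divX, hQ.2]
      · simp [fam, (hcoeff _).1]
    rw [this, linearIndependent_finSnoc]
    exact ⟨hx, hno⟩
  obtain ⟨h, hhS, hh⟩ := ((hS.image inv_injective.injOn).sdiff
    ((Leaf.finite_dependent fam hfam).insert 0)).nonempty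
  obtain ⟨s₀, hs₀, rfl⟩ := hhS
  obtain ⟨h, rfl⟩ : ∃ h, s₀ = h⁻¹ := ⟨s₀⁻¹, (inv_inv _).symm⟩
  rw [inv_inv] at hh
  simp only [Set.mem_insert_iff, Set.mem_ofPred_eq, not_or, not_not] at hh
  obtain ⟨hne, hind⟩ := hh
  let Xs := z + h⁻¹ • x
  let T : Submodule F A := Submodule.span F (Set.range fun k : Fin (N + 1) => Xs ^ (k : ℕ))
  have hpow : ∀ m, m ≤ N → Xs ^ m ∈ T := fun m hm =>
    Submodule.subset_span ⟨⟨m, Nat.lt_succ_of_le hm⟩, rfl⟩
  have hZ : Leaf.evS h Z = h • Xs := by
    rw [show Xs = z + h⁻¹ • x from rfl, smul_add, smul_inv_smul₀ hne, Algebra.smul_def, add_comm]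
    simp [Z, Algebra.commutes]
  have hZm : ∀ m, m ≤ N → Leaf.evS h (Z ^ m) ∈ T := fun m hm => by
    rw [map_pow, hZ, _root_.smul_pow]
    exact T.smul_mem _ (hpow m hm)
  have hQev : Leaf.evS h Q ∈ T := by
    rw [show Q = aeval Z q from rfl, aeval_eq_sum_range, map_sum]
    refine Submodule.sum_mem _ fun m hm => ?_
    rw [Algebra.smul_def, map_mul, Polynomial.algebraMap_apply, Leaf.evS_C, ← Algebra.smul_def]
    exact T.smul_mem _ (hZm m (by rw [Finset.mem_range] at hm; omega))
  have hmem : ∀ k, Leaf.evS h (fam k) ∈ T := by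
    intro k
    refine Fin.lastCases ?_ (fun j => ?_) k
    · have hd : X * Q.divX = Q := by
        have h1 := X_mul_divX_add Q
        rwa [hQ.1, map_zero, add_zero] at h1
      rw [← hd, map_mul, Leaf.evS_X, ← Algebra.smul_def] at hQev
      have h2 := T.smul_mem h⁻¹ hQev
      rw [inv_smul_smul₀ hne] at h2
      simpa [fam] using h2
    · simpa [fam] using hZm j j.2.le
  have : FiniteDimensional F T := FiniteDimensional.span_of_finite F (Set.finite_range _)
  have hT : Module.finrank F T ≤ N := by
    by_contra hlt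
    refine hdep h⁻¹ hs₀ (linearIndependent_iff_card_le_finrank_span.2 ?_)
    simpa [Set.finrank, T, Xs] using Nat.lt_of_not_le hlt
  have hcard := (LinearIndependent.of_comp T.subtype (v := fun k => (⟨_, hmem k⟩ : T))
    hind).fintype_card_le_finrank
  simp only [Fintype.card_fin] at hcard
  omega

/-- Dependent powers along a line of perturbations give the first order condition. -/
theorem lin_of_dep [Infinite F] {x z : A} (hx : Reg F N x)
    (h0 : ¬LinearIndependent F fun k : Fin (N + 1) => x ^ (k : ℕ))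
    (hdep : ∀ s : F, ¬LinearIndependent F fun k : Fin (N + 1) => (z + s • x) ^ (k : ℕ)) :
    Lin F N x z :=
  lin_of_dep_infinite Set.infinite_univ hx h0 fun s _ => hdep s

end

end Vale.P199.Detect
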